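import Vale.Agent.P128.Bdl.B26

open MeasureTheory Set Metric
open Vale.Agent.P128 Vale.Agent.P128.GM

namespace Vale.Agent.Results.P128.GlobalClassified

/-- Classification of all the reduced global minimizers of the Mumford-Shah functional in the plane:
if `(u, K)` is a reduced global minimizer (`G` is the weak gradient of `u` off `K`) then
* `K` is empty and `u` is constant, or
* `K` is a line or a propeller (three half-lines with a common end point, at angles of 120 degrees)
and `u` is constant on each component of the complement of `K`, or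
* `(u, K)` is a crack-tip pair, up to a rigid motion. -/
theorem result (u : ℂ → ℝ) (G : ℂ → ℂ) (K : Set ℂ) (h : IsGlobalMin u G K)
    (hred : IsReduced univ K) :
    (K = ∅ ∧ ∃ c : ℝ, ∀ᵐ z, u z = c) ∨
    ((IsLine K ∨ IsPropeller K) ∧ ∃ u' : ℂ → ℝ, (∀ᵐ z, u z = u' z) ∧
      ∀ z ∉ K, ∀ w ∈ connectedComponentIn Kᶜ z, u' w = u' z) ∨
    ∃ u' : ℂ → ℝ, (∀ᵐ z, u z = u' z) ∧ IsCrackTip u' K :=
  h.classify_all hred

end Vale.Agent.Results.P128.GlobalClassified
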