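import Vale.Agent.P128.Bdl.B26

open MeasureTheory Set Metric
open Vale.Agent.P128

namespace Vale.Agent.Results.P128.MumfordShah

/-- `γ` is, on the interval `[a, b]`, an injective `C^{1,α}` parametrisation with nonvanishing
derivative `γ'`. -/
structure IsArc (α a b : ℝ) (γ γ' : ℝ → ℂ) : Prop where
  inj : InjOn γ (Icc a b)
  deriv : ∀ t ∈ Icc a b, HasDerivWithinAt γ (γ' t) (Icc a b) t
  ne : ∀ t ∈ Icc a b, γ' t ≠ 0
  holder : ∃ C : ℝ, ∀ s ∈ Icc a b, ∀ t ∈ Icc a b, ‖γ' s - γ' t‖ ≤ C * |s - t| ^ α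

/-- `S` is an embedded `C^{1,α}` arc with `x` in its interior. -/
def ArcThrough (α : ℝ) (S : Set ℂ) (x : ℂ) : Prop :=
  ∃ γ γ' : ℝ → ℂ, IsArc α (-1) 1 γ γ' ∧ γ 0 = x ∧ S = γ '' Icc (-1) 1

/-- `S` is an embedded `C^{1,α}` arc ending at `x`. -/
def ArcEnding (α : ℝ) (S : Set ℂ) (x : ℂ) : Prop :=
  ∃ γ γ' : ℝ → ℂ, IsArc α 0 1 γ γ' ∧ γ 0 = x ∧ S = γ '' Icc 0 1

/-- `S` is the union of three embedded `C^{1,α}` arcs which start at `x`, meet only at `x`, and make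
there pairwise angles of 120 degrees. -/
def TripleJunction (α : ℝ) (S : Set ℂ) (x : ℂ) : Prop :=
  ∃ γ γ' : Fin 3 → ℝ → ℂ, (∀ i, IsArc α 0 1 (γ i) (γ' i) ∧ γ i 0 = x) ∧
    S = ⋃ i, γ i '' Icc 0 1 ∧
    (∀ i j, i ≠ j → γ i '' Icc 0 1 ∩ γ j '' Icc 0 1 = {x}) ∧
    ∀ i j, i ≠ j → inner ℝ (γ' i 0) (γ' j 0) = -(1 / 2) * (‖γ' i 0‖ * ‖γ' j 0‖)

/-- **The Mumford-Shah conjecture in the plane.** Let `(u, K)` be a reduced minimizer of the
Mumford-Shah functional in the open set `Ω` (`G` is the weak gradient of `u` off `K`), with bounded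
`g`. Then every point `x` of `K` is the centre of a closed disk contained in `Ω`, in which, for some
`α > 0`, the set `K` is an embedded `C^{1,α}` arc with `x` in its interior, or an embedded `C^{1,α}`
arc ending at `x`, or the union of three embedded `C^{1,α}` arcs meeting only at `x`, at pairwise
angles of 120 degrees. -/
theorem result (Ω : Set ℂ) (hΩ : IsOpen Ω) (g u : ℂ → ℝ) (G : ℂ → ℂ) (K : Set ℂ)
    (hg : MemLp g ⊤ (volume.restrict Ω)) (hmin : IsMinimizer Ω g u G K) (hred : IsReduced Ω K) :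
    ∀ x ∈ K, ∃ r : ℝ, 0 < r ∧ closedBall x r ⊆ Ω ∧ ∃ α : ℝ, 0 < α ∧
      (ArcThrough α (K ∩ closedBall x r) x ∨ ArcEnding α (K ∩ closedBall x r) x ∨
        TripleJunction α (K ∩ closedBall x r) x) := by
  intro x hx
  obtain ⟨r, h1, h2, α, h3, h4⟩ := Q1.main hΩ hg hmin hred x hx
  refine ⟨r, h1, h2, α, h3, ?_⟩
  have hc : ∀ {a b : ℝ} {γ γ' : ℝ → ℂ}, Q1.IsArc α a b γ γ' → IsArc α a b γ γ' :=
    fun h => ⟨h.inj, h.deriv, h.ne, h.holder⟩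
  rcases h4 with ⟨γ, γ', h5, h6⟩ | ⟨γ, γ', h5, h6⟩ | ⟨γ, γ', h5, h6⟩
  · exact Or.inl ⟨γ, γ', hc h5, h6⟩
  · exact Or.inr (Or.inl ⟨γ, γ', hc h5, h6⟩)
  · exact Or.inr (Or.inr ⟨γ, γ', fun i => ⟨hc (h5 i).1, (h5 i).2⟩, h6⟩)

end Vale.Agent.Results.P128.MumfordShah
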